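import Vale.Agent.P129B.Rec
import Vale.Agent.P323.Z.Sentences

/-!
# Forcing over an arbitrary model: names and the forcing relation

All elements of the model are names. `Ent σ τ c`: the pair of the name `τ` and the condition `c`
is an entry of `σ`. Forced equality is a greatest fixed point.
-/

namespace Vale.Agent.P129B

open Vale.Agent.P323.Z

universe v

variable {N : Type v} [ZM N]

namespace Fo

theorem exists_trans (x : N) : ∃ T : N, x ∈ T ∧ ∀ y, y ∈ T → ∀ z, z ∈ y → z ∈ T := by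
  have hs : DefF N (fun p : NN N × N => sUnion p.2) := by fun_prop
  let U : NN N → N := fun n => irec (upair x x) (fun _ b => sUnion b) n
  have hU : DefF N U := by fun_prop
  have h1 := intl_image hU (Set.univ : Set (NN N))
  refine ⟨sUnion (code N (U '' Set.univ)), ?_, fun y hy z hz => ?_⟩
  · exact mem_sUnion.2 ⟨U 0, (mem_code_set h1).2 ⟨_, ⟨0, trivial, rfl⟩, rfl⟩, by
      simp only [U, irec_zero]; exact mem_upair.2 (Or.inl rfl)⟩
  · obtain ⟨u, hu, hy⟩ := mem_sUnion.1 hy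
    obtain ⟨_, ⟨n, -, rfl⟩, rfl⟩ := (mem_code_set h1).1 hu
    refine mem_sUnion.2 ⟨U (n + 1), (mem_code_set h1).2 ⟨_, ⟨n + 1, trivial, rfl⟩, rfl⟩, ?_⟩
    have : U (n + 1) = sUnion (U n) := irec_succ hs n
    rw [this]
    exact mem_sUnion.2 ⟨y, hy, hz⟩

theorem mem_ind {Q : N → Prop} (hQ : DefF N Q) (h : ∀ x, (∀ y, y ∈ x → Q y) → Q x) (x : N) :
    Q x := by
  by_contra hx
  obtain ⟨T, hxT, hT⟩ := exists_trans x
  obtain ⟨B, hB⟩ := hQ.not.sep T
  obtain ⟨y, hy, hm⟩ := found ((hB x).2 ⟨hxT, hx⟩)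
  refine ((hB y).1 hy).2 (h y fun z hz => ?_)
  by_contra hz'
  exact hm z ((hB z).2 ⟨hT y ((hB y).1 hy).1 z hz, hz'⟩) hz

end Fo

variable {P : Type v} [Coded N P]

/-- `(τ, c)` is an entry of the name `σ` -/
def Ent (σ τ : N) (c : P) : Prop := op τ (code N c) ∈ σ

@[fun_prop] theorem DefF.ent {α : Type*} [Coded N α] {f g : α → N} {c : α → P} (hf : DefF N f)
    (hg : DefF N g) (hc : DefF N c) : DefF N (fun a => Ent (f a) (g a) (c a)) := by
  unfold Ent; fun_prop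

theorem Ent.trans_mem {T σ τ : N} {c : P} (hT : ∀ y, y ∈ T → ∀ z, z ∈ y → z ∈ T) (hσ : σ ∈ T)
    (h : Ent σ τ c) : τ ∈ T :=
  hT _ (hT _ (hT _ hσ _ h) (upair τ τ) (mem_upair.2 (Or.inl rfl))) _ (mem_upair.2 (Or.inl rfl))

/-- Induction on names, for definable properties. -/
theorem Fo.ent_ind (P : Type v) [Coded N P] {Q : N → Prop} (hQ : DefF N Q)
    (h : ∀ σ : N, (∀ (τ : N) (c : P), Ent σ τ c → Q τ) → Q σ) (σ : N) : Q σ := by
  have key : ∀ x : N, Q x ∧ (∀ y, y ∈ x → Q y) ∧ ∀ y, y ∈ x → ∀ z, z ∈ y → Q z := by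
    refine Fo.mem_ind (by fun_prop) fun x ih => ⟨h x fun τ c he => ?_, fun y hy => (ih y hy).1,
      fun y hy z hz => (ih y hy).2.1 z hz⟩
    exact (ih _ he).2.2 (upair τ τ) (mem_upair.2 (Or.inl rfl)) _ (mem_upair.2 (Or.inl rfl))
  exact (key σ).1

/-- The names of the entries of a name form a set. -/
theorem Fo.exists_dom (P : Type v) [Coded N P] (σ : N) :
    ∃ D : N, ∀ (τ : N) (c : P), Ent σ τ c → τ ∈ D :=
  ⟨sUnion (sUnion σ), fun τ _ h => mem_sUnion.2 ⟨upair τ τ, mem_sUnion.2 ⟨_, h,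
    mem_upair.2 (Or.inl rfl)⟩, mem_upair.2 (Or.inl rfl)⟩⟩

variable [Tot N P]

/-- A name with prescribed entries. -/
theorem Fo.exists_name (D : N) {S : N → P → Prop} (hS : DefF N (fun x : N × P => S x.1 x.2)) :
    ∃ σ : N, ∀ (τ : N) (c : P), Ent σ τ c ↔ τ ∈ D ∧ S τ c := by
  obtain ⟨A, hA⟩ := Bdd.car (N := N) (α := P)
  obtain ⟨B, hB⟩ := exists_prod D A
  have h1 : DefF N (fun z : N => ∃ τ : N, ∃ c : P, z = op τ (code N c) ∧ S τ c) := by fun_prop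
  obtain ⟨σ, hσ⟩ := h1.sep B
  refine ⟨σ, fun τ c => (hσ _).trans ⟨?_, fun h => ⟨(hB _).2 ⟨τ, _, h.1,
    (hA _).2 ⟨c, inferInstance, rfl⟩, rfl⟩, τ, c, rfl, h.2⟩⟩⟩
  rintro ⟨h2, τ', c', h3, h4⟩
  obtain ⟨x, y, hx, -, h5⟩ := (hB _).1 h2
  obtain ⟨rfl, h6⟩ := op_inj.1 h3
  obtain rfl : c = c' := code_inj inferInstance inferInstance h6
  exact ⟨(op_inj.1 h5).1 ▸ hx, h4⟩

variable [Preorder P]

/-- one unfolding of forced equality -/
def FStep (R : N → N → P → Prop) (σ τ : N) (p : P) : Prop :=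
  (∀ s c, Ent σ s c → ∀ q, q ≤ p → q ≤ c → ∃ r, r ≤ q ∧ ∃ t d, Ent τ t d ∧ r ≤ d ∧ R s t r) ∧
  (∀ t d, Ent τ t d → ∀ q, q ≤ p → q ≤ d → ∃ r, r ≤ q ∧ ∃ s c, Ent σ s c ∧ r ≤ c ∧ R s t r)

/-- forced equality -/
def feq (σ τ : N) (p : P) : Prop :=
  ∃ R : Set (N × N × P), Intl N R ∧ (σ, τ, p) ∈ R ∧
    ∀ x ∈ R, FStep (fun s t r => (s, t, r) ∈ R) x.1 x.2.1 x.2.2

/-- forced membership -/
def fmem (σ τ : N) (p : P) : Prop :=
  ∀ q, q ≤ p → ∃ r, r ≤ q ∧ ∃ t d, Ent τ t d ∧ r ≤ d ∧ feq σ t r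

omit [Tot N P] in
theorem FStep.mono {R S : N → N → P → Prop} {σ τ : N} {p : P} (h : FStep R σ τ p)
    (H : ∀ (s : N) (c : P) (t : N) (d r : P), Ent σ s c → Ent τ t d → R s t r → S s t r) : FStep S σ τ p := by
  refine ⟨fun s c hs q hq hc => ?_, fun t d ht q hq hd => ?_⟩
  · obtain ⟨r, hr, t, d, h1, h2, h3⟩ := h.1 s c hs q hq hc
    exact ⟨r, hr, t, d, h1, h2, H _ _ _ _ _ hs h1 h3⟩
  · obtain ⟨r, hr, s, c, h1, h2, h3⟩ := h.2 t d ht q hq hd
    exact ⟨r, hr, s, c, h1, h2, H _ _ _ _ _ h1 ht h3⟩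

omit [Tot N P] in
theorem feq.step {σ τ : N} {p : P} (h : feq σ τ p) : FStep feq σ τ p := by
  obtain ⟨R, hR, h1, h2⟩ := h
  exact (h2 _ h1).mono fun s _ t _ r _ _ h3 => ⟨R, hR, h3, h2⟩

variable [DefLE N P]

theorem defF_fstep {α : Type*} [Coded N α] {R : α → N → N → P → Prop}
    (hR : DefF N (fun x : α × N × N × P => R x.1 x.2.1 x.2.2.1 x.2.2.2)) {f g : α → N}
    {c : α → P} (hf : DefF N f) (hg : DefF N g) (hc : DefF N c) :
    DefF N (fun a => FStep (R a) (f a) (g a) (c a)) := by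
  have hR' : ∀ {β : Type _} [Coded N β] {a : β → α} {s t : β → N} {r : β → P}, DefF N a →
      DefF N s → DefF N t → DefF N r → DefF N (fun b => R (a b) (s b) (t b) (r b)) :=
    fun ha hs ht hr => hR.comp (ha.pair (hs.pair (ht.pair hr)))
  unfold FStep
  refine DefF.and ?_ ?_
  · refine DefF.allN (DefF.allT (DefF.imp (by fun_prop) (DefF.allT (DefF.imp (by fun_prop)
      (DefF.imp (by fun_prop) (DefF.exT (DefF.and (by fun_prop) (DefF.exN (DefF.exT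
      (DefF.and (by fun_prop) (DefF.and (by fun_prop) ?_)))))))))))
    exact hR' (by fun_prop) (by fun_prop) (by fun_prop) (by fun_prop)
  · refine DefF.allN (DefF.allT (DefF.imp (by fun_prop) (DefF.allT (DefF.imp (by fun_prop)
      (DefF.imp (by fun_prop) (DefF.exT (DefF.and (by fun_prop) (DefF.exN (DefF.exT
      (DefF.and (by fun_prop) (DefF.and (by fun_prop) ?_)))))))))))
    exact hR' (by fun_prop) (by fun_prop) (by fun_prop) (by fun_prop)

theorem defF_feq : DefF N (fun x : N × N × P => feq x.1 x.2.1 x.2.2) := by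
  unfold feq
  refine DefF.ex (DefF.and (by fun_prop) (DefF.ball (by fun_prop) ?_))
  exact defF_fstep (R := fun (a : ((N × N × P) × Set (N × N × P)) × N × N × P) s t r =>
    (s, t, r) ∈ a.1.2) (by fun_prop) (by fun_prop) (by fun_prop) (by fun_prop)

@[fun_prop] theorem DefF.feq {α : Type*} [Coded N α] {f g : α → N} {c : α → P} (hf : DefF N f)
    (hg : DefF N g) (hc : DefF N c) : DefF N (fun a => feq (f a) (g a) (c a)) :=
  defF_feq.comp (hf.pair (hg.pair hc))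

@[fun_prop] theorem DefF.fmem {α : Type*} [Coded N α] {f g : α → N} {c : α → P} (hf : DefF N f)
    (hg : DefF N g) (hc : DefF N c) : DefF N (fun a => fmem (f a) (g a) (c a)) := by
  unfold P129B.fmem; fun_prop

omit [DefLE N P] in
/-- Coinduction. -/
theorem feq_coind {Q : N → N → P → Prop} (hQ : DefF N (fun x : N × N × P => Q x.1 x.2.1 x.2.2))
    (h : ∀ σ τ p, Q σ τ p → FStep Q σ τ p) {σ τ : N} {p : P} (h0 : Q σ τ p) : feq σ τ p := by
  obtain ⟨T, h1, hT⟩ := Fo.exists_trans (upair σ τ)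
  have h2 := intl_image (N := N) (f := fun x : El T × El T × P => (x.1.1, x.2.1.1, x.2.2))
    (by fun_prop) Set.univ
  have h3 : ∀ (s t : N) (r : P), (s, t, r) ∈ (fun x : El T × El T × P =>
      (x.1.1, x.2.1.1, x.2.2)) '' Set.univ ↔ s ∈ T ∧ t ∈ T := fun s t r =>
    ⟨by rintro ⟨x, -, h⟩; cases h; exact ⟨x.1.2, x.2.1.2⟩,
      fun h => ⟨(⟨s, h.1⟩, ⟨t, h.2⟩, r), trivial, rfl⟩⟩
  refine ⟨_, intl_sep hQ _ (hs := h2), ⟨(h3 _ _ _).2 ⟨hT _ h1 _ (mem_upair.2 (Or.inl rfl)),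
    hT _ h1 _ (mem_upair.2 (Or.inr rfl))⟩, h0⟩, fun x hx => ?_⟩
  obtain ⟨h4, h5⟩ := (h3 x.1 x.2.1 x.2.2).1 hx.1
  exact (h _ _ _ hx.2).mono fun s c t d r hs ht h6 =>
    ⟨(h3 _ _ _).2 ⟨hs.trans_mem hT h4, ht.trans_mem hT h5⟩, h6⟩

theorem feq_iff (σ τ : N) (p : P) : feq σ τ p ↔ FStep feq σ τ p :=
  ⟨feq.step, feq_coind (Q := FStep feq)
    (defF_fstep (R := fun (_ : N × N × P) => feq) (by fun_prop) (by fun_prop) (by fun_prop)
      (by fun_prop))
    fun _ _ _ h => h.mono fun _ _ _ _ _ _ _ h1 => h1.step⟩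

theorem feq.mono {p q : P} {σ τ : N} (h : feq σ τ p) (hq : q ≤ p) : feq σ τ q := by
  rw [feq_iff] at h ⊢
  exact ⟨fun s c hs r hr => h.1 s c hs r (hr.trans hq), fun s c hs r hr => h.2 s c hs r (hr.trans hq)⟩

omit [Tot N P] [DefLE N P] in
theorem fmem.mono {p q : P} {σ τ : N} (h : fmem σ τ p) (hq : q ≤ p) : fmem σ τ q :=
  fun r hr => h r (hr.trans hq)

theorem feq.of_dense {p : P} {σ τ : N} (h : ∀ q, q ≤ p → ∃ r, r ≤ q ∧ feq σ τ r) :
    feq σ τ p := by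
  rw [feq_iff]
  refine ⟨fun s c hs q hq hi => ?_, fun t d ht q hq hj => ?_⟩
  · obtain ⟨r, hr, h1⟩ := h q hq
    obtain ⟨u, hu, h2⟩ := h1.step.1 s c hs r le_rfl (hr.trans hi)
    exact ⟨u, hu.trans hr, h2⟩
  · obtain ⟨r, hr, h1⟩ := h q hq
    obtain ⟨u, hu, h2⟩ := h1.step.2 t d ht r le_rfl (hr.trans hj)
    exact ⟨u, hu.trans hr, h2⟩

omit [Tot N P] [DefLE N P] in
theorem fmem.of_dense {p : P} {σ τ : N} (h : ∀ q, q ≤ p → ∃ r, r ≤ q ∧ fmem σ τ r) :
    fmem σ τ p := by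
  intro q hq
  obtain ⟨r, hr, h1⟩ := h q hq
  obtain ⟨s, hs, h2⟩ := h1 r le_rfl
  exact ⟨s, hs.trans hr, h2⟩

omit [DefLE N P] in
theorem feq.refl (σ : N) (p : P) : feq σ σ p := by
  refine feq_coind (Q := fun σ τ _ => σ = τ) (by fun_prop) ?_ rfl
  rintro σ _ p rfl
  exact ⟨fun s c hs q _ hc => ⟨q, le_rfl, s, c, hs, hc, rfl⟩,
    fun s c hs q _ hc => ⟨q, le_rfl, s, c, hs, hc, rfl⟩⟩

theorem feq.symm {p : P} {σ τ : N} (h : feq σ τ p) : feq τ σ p :=
  feq_coind (Q := fun σ τ p => feq τ σ p) (by fun_prop)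
    (fun _ _ _ h => ⟨h.step.2, h.step.1⟩) h

theorem feq.trans {p : P} {σ τ ρ : N} (h : feq σ τ p) (h' : feq τ ρ p) : feq σ ρ p := by
  refine feq_coind (Q := fun σ ρ p => ∃ τ : N, feq σ τ p ∧ feq τ ρ p) (by fun_prop) ?_ ⟨τ, h, h'⟩
  rintro σ ρ p ⟨τ, h, h'⟩
  refine ⟨fun s c hs q hq hi => ?_, fun u e hu q hq hk => ?_⟩
  · obtain ⟨r, hr, t, d, h0, h1, h2⟩ := h.step.1 s c hs q hq hi
    obtain ⟨r', hr', u, e, h3, h4, h5⟩ := h'.step.1 t d h0 r (hr.trans hq) h1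
    exact ⟨r', hr'.trans hr, u, e, h3, h4, t, h2.mono hr', h5⟩
  · obtain ⟨r, hr, t, d, h0, h1, h2⟩ := h'.step.2 u e hu q hq hk
    obtain ⟨r', hr', s, c, h3, h4, h5⟩ := h.step.2 t d h0 r (hr.trans hq) h1
    exact ⟨r', hr'.trans hr, s, c, h3, h4, t, h5, h2.mono hr'⟩

theorem feq_comm {p : P} {σ τ : N} : feq σ τ p ↔ feq τ σ p := ⟨feq.symm, feq.symm⟩

omit [DefLE N P] in
theorem fmem_entry {τ t : N} {d p : P} (ht : Ent τ t d) (h : p ≤ d) : fmem t τ p :=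
  fun q hq => ⟨q, le_rfl, t, d, ht, hq.trans h, feq.refl _ _⟩

theorem fmem.congr_left {p : P} {σ σ' τ : N} (h : fmem σ τ p) (h' : feq σ σ' p) :
    fmem σ' τ p := by
  intro q hq
  obtain ⟨r, hr, t, d, h0, h1, h2⟩ := h q hq
  exact ⟨r, hr, t, d, h0, h1, (h'.mono (hr.trans hq)).symm.trans h2⟩

theorem fmem.congr_right {p : P} {σ τ τ' : N} (h : fmem σ τ p) (h' : feq τ τ' p) :
    fmem σ τ' p := by
  intro q hq
  obtain ⟨r, hr, t, d, h0, h1, h2⟩ := h q hq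
  obtain ⟨s, hs, u, e, h3, h4, h5⟩ := h'.step.1 t d h0 r (hr.trans hq) h1
  exact ⟨s, hs.trans hr, u, e, h3, h4, (h2.mono hs).trans h5⟩

theorem fmem.congr {σ σ' τ τ' : N} {p : P} (h : fmem σ τ p) (h1 : feq σ σ' p)
    (h2 : feq τ τ' p) : fmem σ' τ' p := (h.congr_left h1).congr_right h2

theorem feq_of_entries {p : P} {σ τ : N}
    (h1 : ∀ s c q, Ent σ s c → q ≤ p → q ≤ c → fmem s τ q)
    (h2 : ∀ t d q, Ent τ t d → q ≤ p → q ≤ d → fmem t σ q) : feq σ τ p := by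
  rw [feq_iff]
  refine ⟨fun s c hs q hq hi => h1 s c q hs hq hi q le_rfl, fun t d ht q hq hj => ?_⟩
  obtain ⟨r, hr, s, c, h0, h3, h4⟩ := h2 t d q ht hq hj q le_rfl
  exact ⟨r, hr, s, c, h0, h3, h4.symm⟩

/-- Extensionality. -/
theorem feq_ext {p : P} {σ τ : N} (h : ∀ q, q ≤ p → ∀ ρ : N, fmem ρ σ q ↔ fmem ρ τ q) :
    feq σ τ p :=
  feq_of_entries (fun _ _ q hs hq hi => (h q hq _).1 (fmem_entry hs hi))
    (fun _ _ q ht hq hj => (h q hq _).2 (fmem_entry ht hj))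

/-- The forcing relation. -/
def Frc : ∀ {n : ℕ}, Fml n → P → (Fin n → N) → Prop
  | _, .bot, _, _ => False
  | _, .eq i j, p, v => feq (v i) (v j) p
  | _, .mem i j, p, v => fmem (v i) (v j) p
  | _, .imp φ ψ, p, v => ∀ q, q ≤ p → Frc φ q v → Frc ψ q v
  | _, .all φ, p, v => ∀ a : N, Frc φ p (Fin.snoc v a)

/-- The forcing relation of a fixed formula is definable. -/
theorem defF_frc {n : ℕ} (φ : Fml n) {α : Type v} [Coded N α] {c : α → P}
    {v : α → Fin n → N} (hc : DefF N c) (hv : ∀ i, DefF N (fun a => v a i)) :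
    DefF N (fun a => Frc φ (c a) (v a)) := by
  induction φ generalizing α with
  | bot => exact DefF.const False
  | eq i j => exact (hv i).feq (hv j) hc
  | mem i j => exact (hv i).fmem (hv j) hc
  | imp φ ψ ih1 ih2 =>
    have h1 : ∀ i, DefF N (fun x : α × P => v x.1 i) := fun i => (hv i).comp defF_fst
    exact DefF.allT (DefF.imp (by fun_prop) ((ih1 defF_snd h1).imp (ih2 defF_snd h1)))
  | all φ ih =>
    refine DefF.allN (ih (α := α × N) (hc.comp defF_fst) fun i => ?_)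
    refine Fin.lastCases ?_ (fun j => ?_) i
    · simpa only [Fin.snoc_last] using defF_snd
    · simpa only [Fin.snoc_castSucc] using (hv j).comp defF_fst

theorem Frc.mono {n : ℕ} {φ : Fml n} {p q : P} {v : Fin n → N} (h : Frc φ p v) (hq : q ≤ p) :
    Frc φ q v := by
  induction φ generalizing p q with
  | bot => exact h
  | eq i j => exact feq.mono h hq
  | mem i j => exact fmem.mono h hq
  | imp φ ψ _ _ => exact fun r hr => h r (hr.trans hq)
  | all φ ih => exact fun a => ih (h a) hq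

theorem frc_local {n : ℕ} {φ : Fml n} {p : P} {v : Fin n → N}
    (h : ∀ q, q ≤ p → ∃ r, r ≤ q ∧ Frc φ r v) : Frc φ p v := by
  induction φ generalizing p with
  | bot =>
    obtain ⟨r, -, hr⟩ := h p le_rfl
    exact hr
  | eq i j => exact feq.of_dense h
  | mem i j => exact fmem.of_dense h
  | imp φ ψ _ ih =>
    intro q hq hφ
    refine ih fun r hr => ?_
    obtain ⟨s, hs, h1⟩ := h r (hr.trans hq)
    exact ⟨s, hs, h1 s le_rfl (hφ.mono (hs.trans hr))⟩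
  | all φ ih =>
    intro a
    refine ih fun q hq => ?_
    obtain ⟨r, hr, h1⟩ := h q hq
    exact ⟨r, hr, h1 a⟩

theorem Frc.congr {n : ℕ} {φ : Fml n} {p : P} {v w : Fin n → N} (h : Frc φ p v)
    (hv : ∀ i, feq (v i) (w i) p) : Frc φ p w := by
  induction φ generalizing p with
  | bot => exact h
  | eq i j => exact ((hv i).symm.trans h).trans (hv j)
  | mem i j => exact (fmem.congr_left h (hv i)).congr_right (hv j)
  | imp φ ψ ih1 ih2 =>
    intro q hq hφ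
    exact ih2 (h q hq (ih1 hφ fun i => ((hv i).mono hq).symm)) fun i => (hv i).mono hq
  | all φ ih =>
    intro a
    refine ih (h a) fun i => ?_
    refine Fin.lastCases ?_ (fun j => ?_) i
    · simpa using feq.refl a p
    · simpa using hv j

theorem exists_frc_neg {n : ℕ} {φ : Fml n} {p : P} {v : Fin n → N} (h : ¬ Frc φ p v) :
    ∃ q, q ≤ p ∧ ∀ r, r ≤ q → ¬ Frc φ r v := by
  by_contra hcon
  push Not at hcon
  exact h (frc_local hcon)

end Vale.Agent.P129B
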