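import Vale.Agent.P129BC.Ccc

/-!
# Random forcing inside a model: avoiding small sets of values
-/

set_option linter.unusedSectionVars false

namespace Vale.Agent.P129B

universe v

variable {N : Type v} [ZM N] {K Ω R : Type*} [Coded N K] [Tot N K] [Coded N Ω] [Tot N Ω]
  [Field R] [LinearOrder R] [IsStrictOrderedRing R] [Coded N R] [RF N R] {w : NN N → NN N}

namespace MS

variable {S : MS N K Ω R w}

/-- the points where a family has too many members -/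
def CZ (w : NN N → NN N) (V : NN N → NN N → NN N → Set Ω) : Set Ω :=
  {ω | ∃ k, (∃ M L x y, M ≠ L ∧ ω ∈ V k M x ∧ ω ∈ V k L y) ∨
    ∃ M c, Many {x | ω ∈ V k M x} M c ∧ ¬ c * w k ≤ M + 1}

/-- The mass estimate for one finite family of sets. -/
theorem c_mass {V : NN N → NN N → NN N → Set Ω}
    (hV : DefF N (fun p : NN N × NN N × NN N => V p.1 p.2.1 p.2.2)) (hZ : Intl N (CZ w V)) (a : K)
    (inv : ∀ k M x l L y ω, S.upd ω a l L y ∈ V k M x ↔ ω ∈ V k M x) (k₀ b b' : NN N) :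
    S.μ {ω | ∃ k, k₀ ≤ k ∧ k < b ∧
      ω ∈ {ω | ∃ M, M < b' ∧ ω ∈ {ω | ω ∈ V k M (S.cd ω a k M) \ CZ w V}}} ≤ S.h k₀ := by
  have hV' : ∀ {α : Type _} [Coded N α] {f g h : α → NN N}, DefF N f → DefF N g → DefF N h →
      DefF N (fun a => V (f a) (g a) (h a)) :=
    fun hf hg hh => hV.comp (hf.pair (hg.pair hh))
  have invZ : ∀ l L y ω, S.upd ω a l L y ∈ CZ w V ↔ ω ∈ CZ w V := fun l L y ω => by
    simp only [CZ, Set.mem_ofPred_eq, inv]
  have hB : DefF N (fun p : NN N × NN N => {ω | ω ∈ V p.1 p.2 (S.cd ω a p.1 p.2) \ CZ w V}) :=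
    DefF.setOfT (DefF.mem (by fun_prop)
      (DefF.diff (hV' (by fun_prop) (by fun_prop) (by fun_prop)) (by fun_prop)))
  have h1 := S.c_union_le
    (A := fun k => {ω | ∃ M, M < b' ∧ ω ∈ {ω | ω ∈ V k M (S.cd ω a k M) \ CZ w V}})
    (DefF.setOfT (DefF.exT (DefF.and (by fun_prop) (DefF.mem (by fun_prop)
      (hB.comp2 (F := fun k M => {ω | ω ∈ V k M (S.cd ω a k M) \ CZ w V})
        (by fun_prop) (by fun_prop)))))) (c := 1) k₀ b (fun k _ _ => ?_) zero_le_one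
  · rwa [one_mul] at h1
  rw [one_mul]
  have hU : DefF N (fun M : NN N => {ω | ∃ x, ω ∈ V k M x \ CZ w V}) :=
    DefF.setOfT (DefF.exT (DefF.mem (by fun_prop)
      (DefF.diff (hV' (by fun_prop) (by fun_prop) (by fun_prop)) (by fun_prop))))
  refine S.c_disj_sum (hB.comp2 (F := fun k M => {ω | ω ∈ V k M (S.cd ω a k M) \ CZ w V})
    (DefF.const k) DefF.id) hU (sub_nonneg.2 (S.h_lt k).le) (fun M => ?_) ?_ b'
  · refine S.ind a k M (fun x => V k M x \ CZ w V) _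
      (DefF.toIntl (DefF.diff (hV.comp (g := fun x => (k, M, x)) (by fun_prop))
        (by fun_prop)))
      (hU.intl M) (fun x y ω => and_congr (inv _ _ _ _ _ _ _) (not_congr (invZ _ _ _ _)))
      (fun ω c hc => ?_) fun x _ ω hω => ⟨x, hω⟩
    by_cases hω : ω ∈ CZ w V
    · obtain ⟨f, -, -, h3⟩ := hc
      rcases NN.zero_or_add_one c with rfl | ⟨d, rfl⟩
      · rw [zero_mul]; exact NN.zero_le' _
      · exact absurd hω (h3 d (NN.lt_add_one d)).2.2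
    · by_contra h2
      exact hω ⟨k, Or.inr ⟨M, c, hc.mono fun x _ hx => hx.1, h2⟩⟩
  · rintro M L ω ⟨x, hx⟩ ⟨y, hy⟩
    by_contra h2
    exact hx.2 ⟨k, Or.inl ⟨M, L, x, y, h2, hx.1, hy.1⟩⟩

variable (S) in
/-- the condition `p` gives the value `x` to the coordinate `(a, k, M)` -/
def cev (a : K) (k M x : NN N) (p : S.PP) : Prop := ∃ n, ∀ ω ∈ p.s n, S.cd ω a k M = x

theorem c_inv_cd (a : K) (k M x : NN N) : S.Inv {a} {ω | S.cd ω a k M = x} :=
  fun b hb l L y ω => by simp only [Set.mem_ofPred_eq, S.cd_upd ω a k M b l L y hb]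

theorem c_avoid [Nonempty K] (ψ : NN N → NN N → NN N → S.PP → Prop)
    (hψ : DefF N (fun t : (NN N × NN N × NN N) × S.PP => ψ t.1.1 t.1.2.1 t.1.2.2 t.2))
    (mono : ∀ k M x p q, q ≤ p → ψ k M x p → ψ k M x q)
    (uniq : ∀ k M L x y p, ψ k M x p → ψ k L y p → M = L)
    (few : ∀ k M c p, Many {x | ψ k M x p} M c → c * w k ≤ M + 1) :
    ∃ Δ : Set K, Intl N Δ ∧ Ctb N Δ ∧ ∀ a, a ∉ Δ → ∀ q, ∃ p, p ≤ q ∧ ∃ k₀, ∀ k, k₀ ≤ k →
      ∀ M x r, r ≤ p → S.cev a k M x r → ¬ ψ k M x r := by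
  have dw := S.dw
  have hψ' : ∀ {α : Type _} [Coded N α] {f g h : α → NN N} {p : α → S.PP}, DefF N f → DefF N g →
      DefF N h → DefF N p → DefF N (fun a => ψ (f a) (g a) (h a) (p a)) :=
    fun hf hg hh hp => hψ.comp ((hf.pair (hg.pair hh)).pair hp)
  obtain ⟨t, ht, hmax⟩ := c_exists_max (S := S) (D := fun κ p => ψ κ.p1 κ.p2.p1 κ.p2.p2 p)
    (hψ' (by fun_prop) (by fun_prop) (by fun_prop) (by fun_prop))
  have dt : DefF N t := DefF.ofIntl t
  obtain ⟨Dl, hDl, hD⟩ := exists_intl_choice (N := N)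
    (R := fun (j : NN N) (Δ : Set K) => Ctb N Δ ∧ ∀ n, S.Inv Δ ((t j).s n)) (by fun_prop)
    fun j => (t j).cl.2
  have dD : DefF N Dl := DefF.ofIntl Dl
  have iΔ : Intl N (⋃ j, Dl j) := by
    have := intl_setOfT (N := N) (P := fun a : K => ∃ j, a ∈ Dl j) (by fun_prop)
    convert this using 1
    exact Set.ext fun a => Set.mem_iUnion
  have cΔ := ctb_iUnion dD fun j => (hD j).1
  have invt : ∀ j n, S.Inv (⋃ j, Dl j) ((t j).s n) :=
    fun j n => ((hD j).2 n).mono (Set.subset_iUnion Dl j)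
  refine ⟨_, iΔ, cΔ, fun a ha q => ?_⟩
  let Ky : NN N → NN N → NN N → NN N → Prop := fun j k M x =>
    j.p1.p1 = k ∧ j.p1.p2.p1 = M ∧ j.p1.p2.p2 = x ∧ ψ k M x (t j)
  have dK : ∀ {α : Type _} [Coded N α] {j f g h : α → NN N}, DefF N j → DefF N f → DefF N g →
      DefF N h → DefF N (fun a => Ky (j a) (f a) (g a) (h a)) := fun hj hf hg hh =>
    DefF.and (by fun_prop) (DefF.and (by fun_prop) (DefF.and (by fun_prop)
      (hψ' hf hg hh (dt.comp hj))))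
  obtain ⟨ε, hε, hq⟩ := q.pos
  have h0 := S.h_pos 0
  have hε4 : 0 < ε / 4 := by positivity
  obtain ⟨nn, hnn, hn⟩ := exists_intl_choiceT (N := N) (R := fun j m : NN N =>
    ∀ n, S.μ ((t j).s m \ (t j).s n) ≤ ε / 4 / S.h 0 * (S.h j - S.h (j + 1))) (by fun_prop)
    fun j => c_exists_near (t j) (mul_pos (div_pos hε4 h0) (sub_pos.2 (S.h_lt j)))
  have dn : DefF N nn := DefF.ofIntl nn
  obtain ⟨k₀, hk₀⟩ := S.h_lim _ hε4
  let Bd : NN N → Set Ω := fun J => {ω | ∃ j k M x, j < J ∧ Ky j k M x ∧ k₀ ≤ k ∧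
    ω ∈ (t j).s (nn j) ∧ S.cd ω a k M = x}
  have dB : DefF N Bd := DefF.setOfT (DefF.exT (DefF.exT (DefF.exT (DefF.exT
    (DefF.and (by fun_prop) (DefF.and (dK (by fun_prop) (by fun_prop) (by fun_prop)
      (by fun_prop)) (by fun_prop)))))))
  have mass : ∀ J, S.μ (Bd J) ≤ ε / 4 + (ε / 4 + ε / 4) := by
    intro J
    let V : NN N → NN N → NN N → NN N → Set Ω := fun n k M x =>
      {ω | ∃ j, j < J ∧ Ky j k M x ∧ ω ∈ (t j).s n}
    have dV : ∀ {α : Type _} [Coded N α] {n f g h : α → NN N}, DefF N n → DefF N f → DefF N g →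
        DefF N h → DefF N (fun a => V (n a) (f a) (g a) (h a)) := fun hn hf hg hh =>
      DefF.setOfT (DefF.exT (DefF.and (by fun_prop) (DefF.and (dK (by fun_prop) (by fun_prop)
        (by fun_prop) (by fun_prop)) (by fun_prop))))
    have dZ : DefF N (fun n => CZ w (V n)) := by
      refine DefF.setOfT (DefF.exT (DefF.or (DefF.exT (DefF.exT (DefF.exT (DefF.exT
        (DefF.and (by fun_prop) (DefF.and (DefF.mem (by fun_prop) ?_)
          (DefF.mem (by fun_prop) ?_))))))) (DefF.exT (DefF.exT (DefF.and (DefF.many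
            (DefF.setOfT (DefF.mem (by fun_prop) ?_)) (by fun_prop) (by fun_prop))
            (by fun_prop)))))) <;>
      exact dV (by fun_prop) (by fun_prop) (by fun_prop) (by fun_prop)
    have invV : ∀ b, b ∉ ⋃ j, Dl j → ∀ n k M x l L y ω,
        S.upd ω b l L y ∈ V n k M x ↔ ω ∈ V n k M x := fun b hb n k M x l L y ω =>
      exists_congr fun j => and_congr_right fun _ => and_congr_right fun _ =>
        invt j n b hb l L y ω
    have monoV : ∀ m n, m ≤ n → ∀ k M x, V n k M x ⊆ V m k M x :=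
      fun m n h k M x ω ⟨j, h1, h2, h3⟩ => ⟨j, h1, h2, (t j).cl.1 _ _ h h3⟩
    have clZ : S.Cl fun n => CZ w (V n) := by
      refine ⟨fun m n h ω ⟨k, hk⟩ => ⟨k, hk.imp ?_ ?_⟩, _, iΔ, cΔ, fun n b hb l L y ω => ?_⟩
      · exact fun ⟨M, L, x, y, h1, h2, h3⟩ => ⟨M, L, x, y, h1, monoV _ _ h _ _ _ h2,
          monoV _ _ h _ _ _ h3⟩
      · exact fun ⟨M, c, h1, h2⟩ => ⟨M, c, h1.mono fun x _ hx => monoV _ _ h _ _ _ hx, h2⟩
      · simp only [CZ, Set.mem_ofPred_eq, invV b hb]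
    have iZ : Intl N fun n => CZ w (V n) := dZ.toIntl
    have nullZ : ¬ S.Pos fun n => CZ w (V n) := by
      intro hp
      obtain ⟨r, h1, n, h2⟩ := c_decide_fin (u := fun j n => (t j).s n) (by fun_prop)
        (fun j => (t j).cl) J (PP.mk _ iZ clZ hp)
      obtain ⟨m, hm⟩ := h1 n
      obtain ⟨ω, hω⟩ := r.nonempty (max m n)
      have h3 : ∀ k M x, ω ∈ V n k M x → ψ k M x r := fun k M x ⟨j, h4, h5, h6⟩ =>
        (h2 j h4).elim (fun h7 => mono _ _ _ _ _ h7 h5.2.2.2)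
          fun h7 => absurd h6 (h7 ω (r.cl.1 _ _ (le_max_right _ _) hω))
      obtain ⟨k, ⟨M, L, x, y, h4, h5, h6⟩ | ⟨M, c, h4, h5⟩⟩ :=
        hm (r.cl.1 _ _ (le_max_left _ _) hω)
      · exact h4 (uniq k M L x y r (h3 _ _ _ h5) (h3 _ _ _ h6))
      · exact h5 (few k M c r (h4.mono fun x _ hx => h3 _ _ _ hx))
    obtain ⟨n, hn'⟩ := clZ.small nullZ hε4
    obtain ⟨b, hb⟩ := exists_ibound (N := N) (f := fun j : NN N => j.p1.p1) (by fun_prop) J
    obtain ⟨b', hb'⟩ := exists_ibound (N := N) (f := fun j : NN N => j.p1.p2.p1) (by fun_prop) J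
    have e1 := S.c_union_le (A := fun j => (t j).s (nn j) \ (t j).s n) (by fun_prop) 0 J
      (fun j _ _ => hn j n) (div_pos hε4 h0).le
    rw [div_mul_cancel₀ _ h0.ne'] at e1
    have iZn : Intl N (CZ w (V n)) := dZ.intl n
    have e2 := c_mass (S := S) (V := V n)
      (DefF.setOfT (DefF.exT (DefF.and (by fun_prop) (DefF.and (dK (by fun_prop) (by fun_prop)
        (by fun_prop) (by fun_prop)) (by fun_prop))))) iZn a (invV a ha n) k₀
      (b.p1.p1 + 1) (b'.p1.p2.p1 + 1)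
    have i1 : Intl N {ω | ∃ i, 0 ≤ i ∧ i < J ∧ ω ∈ (t i).s (nn i) \ (t i).s n} :=
      intl_setOfT (by fun_prop)
    have i2 : Intl N {ω | ∃ k, k₀ ≤ k ∧ k < b.p1.p1 + 1 ∧ ω ∈ {ω | ∃ M, M < b'.p1.p2.p1 + 1 ∧
        ω ∈ {ω | ω ∈ V n k M (S.cd ω a k M) \ CZ w (V n)}}} :=
      intl_setOfT (DefF.exT (DefF.and (by fun_prop) (DefF.and (by fun_prop) (DefF.exT
        (DefF.and (by fun_prop) (DefF.and (DefF.mem (by fun_prop)
          (dV (by fun_prop) (by fun_prop) (by fun_prop) (by fun_prop))) (by fun_prop)))))))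
    have i3 := dB.intl J
    have e3 := S.μ_le_add (A := CZ w (V n) ∪ _) (B := CZ w (V n)) (C := _) (Set.Subset.refl
      (CZ w (V n) ∪ {ω | ∃ k, k₀ ≤ k ∧ k < b.p1.p1 + 1 ∧ ω ∈ {ω | ∃ M, M < b'.p1.p2.p1 + 1 ∧
        ω ∈ {ω | ω ∈ V n k M (S.cd ω a k M) \ CZ w (V n)}}}))
    refine (S.μ_le_add (A := Bd J) ?_).trans
      (add_le_add e1 (e3.trans (add_le_add (hn' n le_rfl).le (e2.trans hk₀.le))))
    rintro ω ⟨j, k, M, x, h1, h2, h3, h4, h5⟩
    by_cases h6 : ω ∈ (t j).s n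
    · by_cases h7 : ω ∈ CZ w (V n)
      · exact Or.inr (Or.inl h7)
      · exact Or.inr (Or.inr ⟨k, h3, NN.lt_add_one_iff.2 (h2.1 ▸ hb j h1), M,
          NN.lt_add_one_iff.2 (h2.2.1 ▸ hb' j h1), ⟨j, h1, h5 ▸ h2, h6⟩, h7⟩)
    · exact Or.inl ⟨j, NN.zero_le' j, h1, h4, h6⟩
  obtain ⟨Γ, iΓ, cΓ, hΓ⟩ := q.cl.2
  have ia : Intl N ({a} : Set K) :=
    intl_of_finite (Set.finite_singleton a) fun _ _ => inferInstance
  refine ⟨PP.mk (fun n => q.s n \ Bd n) (DefF.toIntl (by fun_prop)) ⟨fun m n h ω hω =>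
    ⟨q.cl.1 _ _ h hω.1, fun ⟨j, k, M, x, h1, h2⟩ => hω.2 ⟨j, k, M, x, h1.trans_le h, h2⟩⟩,
    Γ ∪ ((⋃ j, Dl j) ∪ {a}), inferInstance, cΓ.union (cΔ.union (ctb_single a)),
    fun n b hb l L y ω => ?_⟩ ⟨ε / 4, hε4, fun n => ?_⟩,
    Le.of_sub fun _ => Set.sdiff_subset, k₀, fun k hk M x r hr hev hψr => ?_⟩
  · have h1 : b ∉ Γ := fun h => hb (Or.inl h)
    have h2 : b ∉ ⋃ j, Dl j := fun h => hb (Or.inr (Or.inl h))
    have h3 : b ≠ a := fun h => hb (Or.inr (Or.inr h))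
    refine and_congr (hΓ n b h1 l L y ω) (not_congr ?_)
    simp only [Bd, Set.mem_ofPred_eq, invt _ _ b h2 l L y ω, S.cd_upd ω a _ _ b l L y h3]
  · have := dB.intl n
    have h1 : S.μ (q.s n) ≤ S.μ (q.s n \ Bd n) + S.μ (Bd n) := S.μ_le_add fun ω hω => by
      by_cases h : ω ∈ Bd n
      exacts [Or.inr h, Or.inl ⟨hω, h⟩]
    have h2 := mass n
    have h3 := hq n
    linarith
  · obtain ⟨j, h1, h2, δ, hδ, h3⟩ := hmax (NN.pr k (NN.pr M x)) r
      (by simpa only [NN.p1_pr, NN.p2_pr] using hψr)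
    obtain ⟨n, hev⟩ := hev
    obtain ⟨m, hm⟩ := hr (j + 1)
    obtain ⟨ω, h4, h5⟩ := S.nonempty_of_pos (hδ.trans_le (h3 (max m (max n (nn j)))))
    refine (hm (r.cl.1 _ _ (le_max_left _ _) h4)).2 ⟨j, k, M, x, NN.lt_add_one j, ?_, hk,
      (t j).cl.1 _ _ ((le_max_right _ _).trans (le_max_right _ _)) h5,
      hev ω (r.cl.1 _ _ ((le_max_left _ _).trans (le_max_right _ _)) h4)⟩
    simp only [NN.p1_pr, NN.p2_pr] at h2
    simp only [Ky, h1, NN.p1_pr, NN.p2_pr, true_and, h2]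

variable (S) in
/-- **The ground facts of random forcing.** -/
theorem c_rFo [Nonempty K] : RFo N K S.PP w S.cev where
  dev := by unfold cev; fun_prop
  mono _ _ _ _ _ _ hq := fun ⟨n, h⟩ => (hq n).imp fun _ hm ω hω => h ω (hm hω)
  le a k M x p := fun ⟨n, h⟩ => by
    obtain ⟨ω, hω⟩ := p.nonempty n
    exact h ω hω ▸ S.cd_le ω a k M
  uniq a k M x y p := fun ⟨n, h⟩ ⟨m, h'⟩ => by
    obtain ⟨ω, hω⟩ := p.nonempty (max n m)
    exact (h ω (p.cl.1 _ _ (le_max_left _ _) hω)).symm.trans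
      (h' ω (p.cl.1 _ _ (le_max_right _ _) hω))
  dense a k M q := by
    have ia : Intl N ({a} : Set K) :=
      intl_of_finite (Set.finite_singleton a) fun _ _ => inferInstance
    obtain ⟨r, h1, n, h2⟩ := c_decide_fin (u := fun x _ => {ω | S.cd ω a k M = x})
      (DefF.setOfT (by fun_prop)) (fun x => cl_const (ctb_single a) (c_inv_cd a k M x)) (M + 1) q
    obtain ⟨ω, hω⟩ := r.nonempty n
    rcases h2 _ (NN.lt_add_one_iff.2 (S.cd_le ω a k M)) with h | h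
    · exact ⟨r, h1, _, h 0⟩
    · exact absurd rfl (h ω hω)
  avoid := c_avoid

end MS

end Vale.Agent.P129B
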