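import Vale.Agent.P129BQ.Pos
import Vale.Agent.P129B.Real
import Vale.Agent.P129BL.Enum

/-!
# Random forcing inside a model: the chain condition
-/

set_option linter.unusedSectionVars false

namespace Vale.Agent.P129B

universe v

variable {N : Type v} [ZM N] {K Ω R : Type*} [Coded N K] [Tot N K] [Coded N Ω] [Tot N Ω]
  [Field R] [LinearOrder R] [IsStrictOrderedRing R] [Coded N R] [RF N R] {w : NN N → NN N}

namespace MS

variable (S : MS N K Ω R w)

theorem c_union_le {A : NN N → Set Ω} (hA : DefF N A) {c : R} (k n : NN N)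
    (h : ∀ i, k ≤ i → i < n → S.μ (A i) ≤ c * (S.h i - S.h (i + 1))) (hc : 0 ≤ c) :
    S.μ {ω | ∃ i, k ≤ i ∧ i < n ∧ ω ∈ A i} ≤ c * S.h k := by
  have hB : DefF N (fun i : NN N => {ω | i < n ∧ ω ∈ A i}) := DefF.setOfT (by fun_prop)
  have h1 := S.μ_union_le hB k n (c := c) (fun i hi => by
    by_cases h2 : i < n
    · simpa only [h2, true_and, Set.ofPred_mem_eq] using h i hi h2
    · simp only [h2, false_and, Set.ofPred_false, S.empty]
      exact mul_nonneg hc (sub_nonneg.2 (S.h_lt i).le)) hc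
  convert h1 using 3
  ext ω
  exact exists_congr fun i => and_congr_right fun _ => and_congr_right fun h2 =>
    (and_iff_right h2).symm

/-- Finitely many null sequences have a null union. -/
theorem c_null_union {u : NN N → NN N → Set Ω} (hu : DefF N (fun p : NN N × NN N => u p.1 p.2))
    (I : NN N) (h : ∀ i, i < I → ∀ ε, 0 < ε → ∃ j, ∀ n, j ≤ n → S.μ (u i n) < ε) {ε : R}
    (hε : 0 < ε) (n : NN N) : ∃ m, n ≤ m ∧ S.μ {ω | ∃ i, i < I ∧ ω ∈ u i m} ≤ ε := by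
  have h0 := S.h_pos 0
  obtain ⟨j, hj⟩ := exists_common
    (P := fun i j => ∀ n, j ≤ n → S.μ (u i n) < ε / S.h 0 * (S.h i - S.h (i + 1)))
    (by fun_prop) (fun _ _ _ hij H n hn => H n (hij.trans hn)) I
    fun i hi => h i hi _ (mul_pos (div_pos hε h0) (sub_pos.2 (S.h_lt i)))
  refine ⟨max n j, le_max_left _ _, ?_⟩
  have h1 := S.c_union_le (A := fun i => u i (max n j)) (by fun_prop) 0 I
    (fun i _ hi => (hj i hi _ (le_max_right _ _)).le) (div_pos hε h0).le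
  rw [div_mul_cancel₀ _ h0.ne'] at h1
  simpa only [NN.zero_le', true_and] using h1

variable {S}

/-- There is no infinite antichain of conditions of large measure. -/
theorem c_no_antichain {t : NN N → S.PP} (ht : DefF N t) {ε : R} (hε : 0 < ε)
    (h1 : ∀ l n, ε ≤ S.μ ((t l).s n))
    (h2 : ∀ l m, l < m → ¬ S.Pos fun n => (t m).s n ∩ (t l).s n) : False := by
  have hU : DefF N (fun p : NN N × NN N => {ω | ∃ l, l < p.1 ∧ ω ∈ (t l).s p.2}) :=
    DefF.setOfT (by fun_prop)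
  have key : ∀ I n : NN N, rc R I * (ε / 2) ≤ S.μ {ω | ∃ l, l < I ∧ ω ∈ (t l).s n} := by
    intro I
    refine NN.ind (P := fun I => ∀ n : NN N,
      rc R I * (ε / 2) ≤ S.μ {ω | ∃ l, l < I ∧ ω ∈ (t l).s n})
      (DefF.allT (DefF.le (by fun_prop) (S.defF_μ hU))) (fun n => ?_) (fun I ih n => ?_) I
    · rw [rc_zero, zero_mul]
      exact S.nonneg _ (hU.intl (0, n))
    · obtain ⟨m, hm, h3⟩ := S.c_null_union (u := fun l n => (t I).s n ∩ (t l).s n) (by fun_prop) I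
        (fun l hl δ hδ => by
          have : Intl N fun n => (t I).s n ∩ (t l).s n := DefF.toIntl (by fun_prop)
          exact ((t I).cl.inter (t l).cl).small (h2 l I hl) hδ) (half_pos hε) n
      have i1 : Intl N {ω | ∃ l, l < I ∧ ω ∈ (t l).s m} := hU.intl (I, m)
      have i2 : Intl N {ω | ∃ l, l < I + 1 ∧ ω ∈ (t l).s n} := hU.intl (I + 1, n)
      have h4 := S.union _ ((t I).s m) i1 inferInstance
      have h5 : S.μ ({ω | ∃ l, l < I ∧ ω ∈ (t l).s m} ∪ (t I).s m) ≤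
          S.μ {ω | ∃ l, l < I + 1 ∧ ω ∈ (t l).s n} := by
        refine S.μ_mono ?_
        rintro ω (⟨l, hl, hω⟩ | hω)
        exacts [⟨l, hl.trans (NN.lt_add_one I), (t l).cl.1 _ _ hm hω⟩,
          ⟨I, NN.lt_add_one I, (t I).cl.1 _ _ hm hω⟩]
      have e : {ω | ∃ l, l < I ∧ ω ∈ (t l).s m} ∩ (t I).s m =
          {ω | ∃ i, i < I ∧ ω ∈ (t I).s m ∩ (t i).s m} :=
        Set.ext fun ω => ⟨fun ⟨⟨l, hl, a⟩, b⟩ => ⟨l, hl, b, a⟩, fun ⟨l, hl, b, a⟩ => ⟨⟨l, hl, a⟩, b⟩⟩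
      rw [e] at h4
      have h6 := ih m
      have h7 := h1 I m
      rw [rc_succ]
      linarith
  obtain ⟨I, hI⟩ := exists_rc_gt N (2 / ε)
  have h3 := key I 0
  have := hU.intl (I, 0)
  have h4 := h3.trans (S.μ_le_one _)
  rw [div_lt_iff₀ hε] at hI
  linarith

/-- Countable maximal families of conditions. -/
theorem c_exists_max [Nonempty K] {D : NN N → S.PP → Prop}
    (hD : DefF N (fun p : NN N × S.PP => D p.1 p.2)) :
    ∃ t : NN N → S.PP, Intl N t ∧ ∀ κ r, D κ r →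
      ∃ j : NN N, j.p1 = κ ∧ D κ (t j) ∧ S.Pos fun n => r.s n ∩ (t j).s n := by
  classical
  let Gd : NN N → (NN N → S.PP) → S.PP → Prop := fun n t r =>
    D n.p1 r ∧ (∀ m, hp R n.p2.p1 ≤ S.μ (r.s m)) ∧
      ∀ i, i < n → i.p1 = n.p1 → D i.p1 (t i) → ¬ S.Pos fun m => r.s m ∩ (t i).s m
  have hG : DefF N (fun x : (NN N × (NN N → S.PP)) × S.PP => Gd x.1.1 x.1.2 x.2) := by
    refine DefF.and (by fun_prop) (DefF.and (by fun_prop) (DefF.allT (DefF.imp (by fun_prop)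
      (DefF.imp (by fun_prop) (DefF.imp ?_ (DefF.not (S.defF_pos ?_)))))))
    · exact hD.comp2 (by fun_prop) (DefF.ap (by fun_prop) (by fun_prop))
    · exact DefF.inter (by fun_prop) (defF_s (DefF.ap (by fun_prop) (by fun_prop)) (by fun_prop))
  have hloc : ∀ n t u r, (∀ i, i < n → t i = u i) → Gd n t r → Gd n u r :=
    fun n t u r e h => ⟨h.1, h.2.1, fun i hi => e i hi ▸ h.2.2 i hi⟩
  obtain ⟨t, ht, H⟩ := exists_intl_cov (N := N) (⊤ : S.PP)
    (R := fun n t => (∃ r, Gd n t r) → Gd n t (t n))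
    (DefF.imp (DefF.exT hG) (hG.comp (g := fun p : NN N × (NN N → S.PP) => (p, p.2 p.1))
      (DefF.id.pair (DefF.ap (by fun_prop) (by fun_prop)))))
    (fun n t u e h ⟨r, hr⟩ => e n le_rfl ▸ hloc n t u _ (fun i hi => e i hi.le)
      (h ⟨r, hloc n u t r (fun i hi => (e i hi.le).symm) hr⟩))
    (fun n t _ _ => by
      by_cases h : ∃ r, Gd n t r
      · obtain ⟨r, hr⟩ := h
        have e : ∀ i, i < n → Function.update t n r i = t i :=
          fun i hi => Function.update_of_ne hi.ne _ _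
        refine ⟨Function.update t n r, inferInstance, e, fun _ => ?_⟩
        rw [Function.update_self]
        exact hloc n t _ r (fun i hi => (e i hi).symm) hr
      · exact ⟨t, inferInstance, fun _ _ => rfl, fun h' => absurd h' h⟩)
  refine ⟨t, ht, fun κ r hr => ?_⟩
  by_contra hc
  obtain ⟨ε, hε, h1⟩ := r.pos
  obtain ⟨th, hth⟩ := exists_hp_lt (N := N) hε
  have h2 : ∀ l, Gd (NN.pr κ (NN.pr th l)) t (t (NN.pr κ (NN.pr th l))) := fun l =>
    H _ ⟨r, by simpa only [NN.p1_pr] using hr,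
      fun m => by simpa only [NN.p1_pr, NN.p2_pr] using (hth th le_rfl).le.trans (h1 m),
      fun i _ hi hd hp => hc ⟨i, by simpa only [NN.p1_pr] using hi,
        by simpa only [hi, NN.p1_pr] using hd, hp⟩⟩
  refine c_no_antichain (t := fun l => t (NN.pr κ (NN.pr th l))) (by fun_prop) (hp_pos th)
    (fun l n => by simpa only [NN.p1_pr, NN.p2_pr] using (h2 l).2.1 n) fun l m hlm => ?_
  exact (h2 m).2.2 _ (NN.pr_lt (add_lt_add_right (NN.pr_lt (add_lt_add_right hlm _)) _))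
    (by simp only [NN.p1_pr]) (h2 l).1

/-- Deciding finitely many sequences. -/
theorem c_decide_fin {u : NN N → NN N → Set Ω}
    (hu : DefF N (fun p : NN N × NN N => u p.1 p.2)) (hc : ∀ i, S.Cl (u i)) (J : NN N)
    (q : S.PP) : ∃ r : S.PP, r ≤ q ∧ ∃ n, ∀ i, i < J → Le r.s (u i) ∨ ∀ ω ∈ r.s n, ω ∉ u i n := by
  obtain ⟨r, h1, h2⟩ := dense_fin (N := N) (P := S.PP)
    (D := fun i p => Le p.s (u i) ∨ ∃ j, ∀ ω ∈ p.s j, ω ∉ u i j)
    (DefF.or (defF_le (by fun_prop) (by fun_prop)) (by fun_prop))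
    (fun i p q hq h => h.imp (Le.trans hq) fun ⟨j, hj⟩ => by
      obtain ⟨m, hm⟩ := hq j
      exact ⟨max m j, fun ω hω h3 => hj ω (hm (q.cl.1 _ _ (le_max_left _ _) hω))
        ((hc i).1 _ _ (le_max_right _ _) h3)⟩)
    (fun i q => by
      have : Intl N (u i) := DefF.toIntl (by fun_prop)
      exact q.decide (hc i)) J q
  obtain ⟨n, hn⟩ := exists_common (P := fun i n => Le r.s (u i) ∨ ∀ ω ∈ r.s n, ω ∉ u i n)
    (DefF.or (defF_le (by fun_prop) (by fun_prop)) (by fun_prop))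
    (fun i j n hjn h => h.imp id fun hj ω hω h3 => hj ω (r.cl.1 _ _ hjn hω)
      ((hc i).1 _ _ hjn h3)) J
    fun i hi => (h2 i hi).elim (fun h => ⟨0, Or.inl h⟩) fun ⟨j, hj⟩ => ⟨j, Or.inr hj⟩
  exact ⟨r, h1, n, hn⟩

/-- The terms of a condition are almost constant from some point on. -/
theorem c_exists_near (p : S.PP) {η : R} (hη : 0 < η) :
    ∃ m, ∀ n, S.μ (p.s m \ p.s n) ≤ η := by
  have h1 : ∃ m, ∀ n, S.μ (p.s m) ≤ S.μ (p.s n) + η := by
    by_contra hc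
    push Not at hc
    have h2 : ∀ i : NN N, ∃ n, S.μ (p.s n) + rc R i * η ≤ 1 := fun i =>
      NN.ind (P := fun i => ∃ n, S.μ (p.s n) + rc R i * η ≤ 1) (by fun_prop)
        ⟨0, by simpa using S.μ_le_one _⟩ (fun i ⟨m, hm⟩ => by
          obtain ⟨n, hn⟩ := hc m
          exact ⟨n, by rw [rc_succ]; linarith⟩) i
    obtain ⟨i, hi⟩ := exists_rc_gt N (1 / η)
    obtain ⟨n, hn⟩ := h2 i
    have := S.nonneg (p.s n) inferInstance
    rw [div_lt_iff₀ hη] at hi
    linarith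
  obtain ⟨m, hm⟩ := h1
  refine ⟨m, fun n => ?_⟩
  have h2 := S.μ_split (p.s m) (p.s n)
  have h3 : S.μ (p.s (max m n)) ≤ S.μ (p.s m ∩ p.s n) := S.μ_mono fun ω hω =>
    ⟨p.cl.1 _ _ (le_max_left _ _) hω, p.cl.1 _ _ (le_max_right _ _) hω⟩
  have h4 := hm (max m n)
  linarith

variable (S) in
/-- Sums over disjoint pieces. -/
theorem c_disj_sum {B U : NN N → Set Ω} (hB : DefF N B) (hU : DefF N U) {c : R} (hc : 0 ≤ c)
    (h : ∀ M, S.μ (B M) ≤ c * S.μ (U M)) (hd : ∀ M L ω, ω ∈ U M → ω ∈ U L → M = L) (n : NN N) :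
    S.μ {ω | ∃ M, M < n ∧ ω ∈ B M} ≤ c := by
  have hB' : DefF N (fun n : NN N => {ω | ∃ M, M < n ∧ ω ∈ B M}) := DefF.setOfT (by fun_prop)
  have hU' : DefF N (fun n : NN N => {ω | ∃ M, M < n ∧ ω ∈ U M}) := DefF.setOfT (by fun_prop)
  have key : S.μ {ω | ∃ M, M < n ∧ ω ∈ B M} ≤ c * S.μ {ω | ∃ M, M < n ∧ ω ∈ U M} := by
    refine NN.ind (P := fun n => S.μ {ω | ∃ M, M < n ∧ ω ∈ B M} ≤
      c * S.μ {ω | ∃ M, M < n ∧ ω ∈ U M}) (by fun_prop) ?_ (fun n ih => ?_) n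
    · simp only [NN.not_lt_zero', false_and, exists_false, Set.ofPred_false, S.empty, mul_zero,
        le_rfl]
    · have := hB'.intl n
      have := hU'.intl n
      have := hB'.intl (n + 1)
      have := hU'.intl (n + 1)
      have := hB.intl n
      have := hU.intl n
      have h1 : S.μ {ω | ∃ M, M < n + 1 ∧ ω ∈ B M} ≤
          S.μ {ω | ∃ M, M < n ∧ ω ∈ B M} + S.μ (B n) := by
        refine S.μ_le_add fun ω ⟨i, h2, h3⟩ => ?_
        rcases NN.lt_add_one_cases h2 with h4 | rfl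
        exacts [Or.inl ⟨i, h4, h3⟩, Or.inr h3]
      have h2 : S.μ {ω | ∃ M, M < n ∧ ω ∈ U M} + S.μ (U n) ≤
          S.μ {ω | ∃ M, M < n + 1 ∧ ω ∈ U M} := by
        refine S.μ_disj ?_ fun ω ⟨M, h3, h4⟩ h5 => h3.ne (hd M n ω h4 h5)
        rintro ω (⟨M, h3, h4⟩ | h3)
        exacts [⟨M, h3.trans (NN.lt_add_one n), h4⟩, ⟨n, NN.lt_add_one n, h3⟩]
      have h3 := mul_le_mul_of_nonneg_left h2 hc
      have h4 := h n
      linarith
  have := hU'.intl n
  exact key.trans (mul_le_of_le_one_right hc (S.μ_le_one _))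

end MS

end Vale.Agent.P129B
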