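import Vale.Agent.P129BC.Val
import Vale.Agent.P129BH.Chk
import Vale.Agent.P129BQ.Defs
import Vale.Agent.P129BX.ZFC

/-!
# The two interfaces of a generic extension
-/

set_option linter.unusedSectionVars false

namespace Vale.Agent.P129B

open Vale.Agent.P323.Z Vale.Agent.P129BH

universe v w

variable {N : Type v} [ZM N] {P : Type*} [Coded N P] [Tot N P] [Preorder P] [OrderTop P]

theorem FI.ext_gExt {g : Gen N P} {M : Type w} [ZM M] {val : N → M} (h : FI g ZM.E val) :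
    Ext (fun x => val (chk (code N (⊤ : P)) x)) ∧
      GExt (fun x => val (chk (code N (⊤ : P)) x)) g.G := by
  have hv := val_of_filter (M := M) (val := val) g.top fun s x => h.mem_val x s
  refine ⟨hv.ext_chk, fun _ hp _ hq => g.up hp hq, fun _ hp _ hq => g.dir hp hq, g.meets,
    fun s => ?_, fun A φ hφ => ?_⟩
  · obtain ⟨σ, rfl⟩ := h.surj s
    obtain ⟨F, hF⟩ := h.forces_mem
    exact ⟨fun x p => F p (chk (code N (⊤ : P)) x) σ,
      hF.comp (by fun_prop) (by fun_prop) (by fun_prop), fun _ _ _ hq h1 => hF.mono h1 hq,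
      fun x => hF.truth _ _⟩
  · have h1 : DefF N (fun x : N × P => ∃ a : N, a ∈ A ∧ x.1 = chk (code N (⊤ : P)) a ∧ φ a x.2) := by
      fun_prop
    refine ⟨val (relN (imgN A (chk (code N (⊤ : P))))
      fun t c => ∃ a : N, a ∈ A ∧ t = chk (code N (⊤ : P)) a ∧ φ a c), fun y => ?_⟩
    refine (h.mem_relN h1).trans ⟨?_, ?_⟩
    · rintro ⟨_, c, -, hc, ⟨a, ha, rfl, h2⟩, rfl⟩
      exact ⟨a, ha, rfl, c, hc, h2⟩
    · rintro ⟨a, ha, rfl, c, hc, h2⟩
      exact ⟨_, c, (mem_imgN (defF_chk' _)).2 ⟨a, ha, rfl⟩, hc, ⟨a, ha, rfl, h2⟩, rfl⟩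

/-- **Generic extensions of countable models.** -/
theorem exists_gExt {N : Type v} [ZM N] [Countable N] (P : Type v) [Coded N P] [Tot N P]
    [Preorder P] [OrderTop P] [DefLE N P] :
    ∃ (M : Type v) (_ : ZM M) (j : N → M) (G : Set P), Ext j ∧ GExt j G := by
  obtain ⟨g, M, E, val, -, h⟩ := exists_fi (N := N) (⊤ : P)
  let _ := h.zm
  exact ⟨M, h.zm, _, g.G, FI.ext_gExt (M := M) h⟩

end Vale.Agent.P129B
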