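import Vale.Agent.P129BC.Atom
import Vale.Agent.P129BX.Names

/-!
# The generic extension and the truth lemma
-/

set_option linter.unusedSectionVars false

namespace Vale.Agent.P129B

open Vale.Agent.P323.Z

universe v

variable {N : Type v} [ZM N] {P : Type v} [Coded N P] [Tot N P] [Preorder P] [OrderTop P]
  [DefLE N P]

namespace Gen

variable (g : Gen N P)

theorem dir3 {p q r : P} (hp : p ∈ g.G) (hq : q ∈ g.G) (hr : r ∈ g.G) :
    ∃ s ∈ g.G, s ≤ p ∧ s ≤ q ∧ s ≤ r := by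
  obtain ⟨u, hu, h1, h2⟩ := g.dir hp hq
  obtain ⟨s, hs, h3, h4⟩ := g.dir hu hr
  exact ⟨s, hs, h3.trans h1, h3.trans h2, h4⟩

theorem dense' {D : P → Prop} (hD : DefF N D) (h : ∀ q, ∃ r, r ≤ q ∧ D r) : ∃ r ∈ g.G, D r :=
  g.meets D hD h

theorem dense {D : P → Prop} (hD : DefF N D) {p : P} (hp : p ∈ g.G)
    (h : ∀ q, q ≤ p → ∃ r, r ≤ q ∧ D r) : ∃ r ∈ g.G, D r := g.meets_below hp D hD h

/-- names with the same value -/
def setoid : Setoid N where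
  r σ τ := ∃ p ∈ g.G, feq σ τ p
  iseqv := ⟨fun σ => ⟨⊤, g.top, feq.refl σ ⊤⟩,
    fun ⟨p, hp, h⟩ => ⟨p, hp, h.symm⟩, fun ⟨p, hp, h⟩ ⟨q, hq, k⟩ => by
      obtain ⟨r, hr, h1, h2⟩ := g.dir hp hq
      exact ⟨r, hr, (h.mono h1).trans (k.mono h2)⟩⟩

/-- the underlying set of the extension -/
def M : Type v := Quotient g.setoid

/-- the value of a name -/
def val (σ : N) : g.M := Quotient.mk g.setoid σ

theorem val_surj (x : g.M) : ∃ σ : N, g.val σ = x := Quotient.exists_rep x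

theorem val_eq {σ τ : N} : g.val σ = g.val τ ↔ ∃ p ∈ g.G, feq σ τ p := Quotient.eq

instance [Countable N] : Countable g.M := inferInstanceAs (Countable (Quotient g.setoid))

/-- membership in the extension -/
def E (x y : g.M) : Prop := ∃ σ τ : N, g.val σ = x ∧ g.val τ = y ∧ ∃ p ∈ g.G, fmem σ τ p

theorem val_memE {σ τ : N} : g.E (g.val σ) (g.val τ) ↔ ∃ p ∈ g.G, fmem σ τ p := by
  refine ⟨?_, fun h => ⟨σ, τ, rfl, rfl, h⟩⟩
  rintro ⟨σ', τ', h1, h2, p, hp, h⟩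
  obtain ⟨q, hq, h1⟩ := g.val_eq.1 h1
  obtain ⟨r, hr, h2⟩ := g.val_eq.1 h2
  obtain ⟨s, hs, s1, s2, s3⟩ := g.dir3 hp hq hr
  exact ⟨s, hs, (h.mono s1).congr (h1.mono s2) (h2.mono s3)⟩

theorem mem_valE {τ : N} {x : g.M} :
    g.E x (g.val τ) ↔ ∃ (t : N) (d : P), Ent τ t d ∧ d ∈ g.G ∧ g.val t = x := by
  obtain ⟨σ, rfl⟩ := g.val_surj x
  rw [val_memE]
  constructor
  · rintro ⟨p, hp, h⟩
    obtain ⟨r, hr, t, d, h1, h2, h3⟩ := g.dense
      (D := fun r => ∃ t : N, ∃ d : P, Ent τ t d ∧ r ≤ d ∧ feq σ t r) (by fun_prop) hp h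
    exact ⟨t, d, h1, g.up hr h2, g.val_eq.2 ⟨r, hr, h3.symm⟩⟩
  · rintro ⟨t, d, h1, h2, h3⟩
    obtain ⟨p, hp, h4⟩ := g.val_eq.1 h3
    obtain ⟨q, hq, h5, h6⟩ := g.dir hp h2
    exact ⟨q, hq, (fmem_entry h1 h6).congr_left (h4.mono h5)⟩

theorem extE {x y : g.M} (e : ∀ z, g.E z x ↔ g.E z y) : x = y := by
  obtain ⟨σ, rfl⟩ := g.val_surj x
  obtain ⟨τ, rfl⟩ := g.val_surj y
  have neg : ∀ {s τ : N} {q : P}, ¬ fmem s τ q → ∃ r, r ≤ q ∧ ∀ u, u ≤ r → ¬ fmem s τ u := by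
    intro s τ q h
    by_contra hcon
    push Not at hcon
    exact h (fmem.of_dense hcon)
  obtain ⟨r, hr, h | ⟨s, c, h1, h2, h3⟩ | ⟨s, c, h1, h2, h3⟩⟩ := g.dense'
    (D := fun r => feq σ τ r ∨
      (∃ s : N, ∃ c : P, Ent σ s c ∧ r ≤ c ∧ ∀ u, u ≤ r → ¬ fmem s τ u) ∨
      ∃ s : N, ∃ c : P, Ent τ s c ∧ r ≤ c ∧ ∀ u, u ≤ r → ¬ fmem s σ u) (by fun_prop) (by
    intro q
    by_cases h1 : ∀ s c u, Ent σ s c → u ≤ q → u ≤ c → fmem s τ u
    · by_cases h2 : ∀ s c u, Ent τ s c → u ≤ q → u ≤ c → fmem s σ u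
      · exact ⟨q, le_rfl, Or.inl (feq_of_entries h1 h2)⟩
      · push Not at h2
        obtain ⟨s, c, u, h3, h4, h5, h6⟩ := h2
        obtain ⟨r, h7, h8⟩ := neg h6
        exact ⟨r, h7.trans h4, Or.inr (Or.inr ⟨s, c, h3, h7.trans h5, h8⟩)⟩
    · push Not at h1
      obtain ⟨s, c, u, h3, h4, h5, h6⟩ := h1
      obtain ⟨r, h7, h8⟩ := neg h6
      exact ⟨r, h7.trans h4, Or.inr (Or.inl ⟨s, c, h3, h7.trans h5, h8⟩)⟩)
  · exact g.val_eq.2 ⟨r, hr, h⟩
  · obtain ⟨p, hp, h4⟩ := g.val_memE.1 ((e _).1 (g.mem_valE.2 ⟨s, c, h1, g.up hr h2, rfl⟩))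
    obtain ⟨u, -, h5, h6⟩ := g.dir hr hp
    exact absurd (h4.mono h6) (h3 u h5)
  · obtain ⟨p, hp, h4⟩ := g.val_memE.1 ((e _).2 (g.mem_valE.2 ⟨s, c, h1, g.up hr h2, rfl⟩))
    obtain ⟨u, -, h5, h6⟩ := g.dir hr hp
    exact absurd (h4.mono h6) (h3 u h5)

theorem snoc_val {n : ℕ} (v : Fin n → N) (a : N) :
    (fun i => g.val ((Fin.snoc v a : Fin (n + 1) → N) i)) =
      Fin.snoc (fun i => g.val (v i)) (g.val a) := by
  funext i
  refine Fin.lastCases ?_ (fun j => ?_) i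
  · simp
  · simp

theorem defF_snoc {α : Type*} [Coded N α] {n : ℕ} {v : α → Fin n → N} {a : α → N}
    (hv : ∀ i, DefF N (fun x => v x i)) (ha : DefF N a) (i : Fin (n + 1)) :
    DefF N (fun x => (Fin.snoc (v x) (a x) : Fin (n + 1) → N) i) := by
  refine Fin.lastCases ?_ (fun j => ?_) i
  · simpa only [Fin.snoc_last] using ha
  · simpa only [Fin.snoc_castSucc] using hv j

/-- The truth lemma. -/
theorem truthE {n : ℕ} (φ : Fml n) (v : Fin n → N) :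
    φ.Sat g.E (fun i => g.val (v i)) ↔ ∃ p ∈ g.G, Frc φ p v := by
  induction φ with
  | bot => exact ⟨False.elim, fun ⟨_, _, h⟩ => h⟩
  | eq i j => exact g.val_eq
  | mem i j => exact g.val_memE
  | imp φ ψ ih1 ih2 =>
    rw [Fml.sat_imp, ih1 v, ih2 v]
    constructor
    · intro H
      have h0 : DefF N (fun r : P => Frc φ r v) := defF_frc φ DefF.id fun _ => DefF.const _
      obtain ⟨q, hq, h1 | h1⟩ := g.dense' (D := fun r => Frc φ r v ∨ ∀ u, u ≤ r → ¬ Frc φ u v)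
        (by fun_prop) (fun q => by
          by_cases h : Frc φ q v
          · exact ⟨q, le_rfl, Or.inl h⟩
          · obtain ⟨r, h1, h2⟩ := exists_frc_neg h
            exact ⟨r, h1, Or.inr h2⟩)
      · obtain ⟨r, hr, h2⟩ := H ⟨q, hq, h1⟩
        exact ⟨r, hr, fun s hs _ => h2.mono hs⟩
      · exact ⟨q, hq, fun s hs h2 => absurd h2 (h1 s hs)⟩
    · rintro ⟨p, hp, h1⟩ ⟨q, hq, h2⟩
      obtain ⟨r, hr, h3, h4⟩ := g.dir hp hq
      exact ⟨r, hr, h1 r h3 (h2.mono h4)⟩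
  | all φ ih =>
    rw [Fml.sat_all]
    constructor
    · intro H
      have h0 : DefF N (fun r : P => Frc φ.all r v) :=
        defF_frc φ.all DefF.id fun _ => DefF.const _
      have h0' : DefF N (fun x : (P × N) × P => Frc φ x.2 (Fin.snoc v x.1.2)) :=
        defF_frc φ defF_snd (defF_snoc (fun _ => DefF.const _) (by fun_prop))
      obtain ⟨q, hq, h1 | ⟨a, h1⟩⟩ := g.dense'
        (D := fun r => Frc φ.all r v ∨ ∃ a : N, ∀ u, u ≤ r → ¬ Frc φ u (Fin.snoc v a))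
        (h0.or (DefF.exN (DefF.allT (DefF.imp (by fun_prop) h0'.not)))) (fun q => by
          by_cases h : Frc φ.all q v
          · exact ⟨q, le_rfl, Or.inl h⟩
          · obtain ⟨a, ha⟩ := not_forall.1 h
            obtain ⟨r, h1, h2⟩ := exists_frc_neg ha
            exact ⟨r, h1, Or.inr ⟨a, h2⟩⟩)
      · exact ⟨q, hq, h1⟩
      · have h2 := H (g.val a)
        rw [← g.snoc_val, ih] at h2
        obtain ⟨r, hr, h2⟩ := h2
        obtain ⟨s, -, h3, h4⟩ := g.dir hq hr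
        exact absurd (h2.mono h4) (h1 s h3)
    · rintro ⟨p, hp, h1⟩ x
      obtain ⟨a, rfl⟩ := g.val_surj x
      rw [← g.snoc_val, ih]
      exact ⟨p, hp, h1 a⟩

/-- The extension satisfies the interface. -/
theorem fi : FI g g.E g.val where
  surj := g.val_surj
  mem_val x s := g.mem_valE.trans
    ⟨fun ⟨t, d, h1, h2, h3⟩ => ⟨t, d, h2, h1, h3.symm⟩,
      fun ⟨t, d, h2, h1, h3⟩ => ⟨t, d, h1, h2, h3.symm⟩⟩
  ext _ _ := g.extE
  truth n φ v := by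
    refine ⟨fun p a b => Frc φ p (Fin.snoc (Fin.snoc v a : Fin (n + 1) → N) b), ?_,
      fun h hq => h.mono hq, fun a b => ?_⟩
    · exact defF_frc φ defF_fst (defF_snoc (defF_snoc (fun _ => DefF.const _) (by fun_prop))
        (by fun_prop))
    · rw [← g.truthE, g.snoc_val, g.snoc_val]
      rfl

end Gen

/-- Generic extensions of countable models exist. -/
theorem exists_fi [Countable N] (p₀ : P) : ∃ (g : Gen N P) (M : Type v) (E : M → M → Prop)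
    (val : N → M), p₀ ∈ g.G ∧ FI g E val := by
  obtain ⟨g, hg⟩ := exists_gen (N := N) p₀
  exact ⟨g, g.M, g.E, g.val, hg, g.fi⟩

end Vale.Agent.P129B
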